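import Vale.Agent.P098.Regularity.Assemble.Open
import Vale.Agent.P098.Regularity.Assemble.Cones
import Vale.Agent.P098.Regularity.Assemble.FlatMin
import Vale.Agent.P098.Regularity.Literal
import Vale.Agent.P098.Regularity.Flatness.Main
import Vale.Agent.P098.Regularity.Cone.Low
import Vale.Agent.P098.Regularity.Cone.Four.Main
import Vale.Agent.P098.Regularity.B5.Smooth
import Vale.Agent.P098.Seven.Main

/-!
P098: the critical dimension of the one-phase problem is seven.
-/

open MeasureTheory Filter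
open scoped RealInnerProductSpace

namespace Vale.Agent.Results.P098.HomogeneousMinimizers

open Vale.Agent.P098

/-- Seven is the least dimension with a one-homogeneous global minimizer that is neither zero nor
flat; flat functions are one-homogeneous global minimizers in every dimension. -/
theorem result :
    IsLeast {d : ℕ | 1 ≤ d ∧ ∃ u : Euc d → ℝ, IsH10Minimizer u ∧
      (∀ r : ℝ, 0 < r → ∀ᵐ x, u (r • x) = r * u x) ∧
      ¬ (u =ᵐ[volume] 0 ∨ ∃ e : Euc d, ‖e‖ = 1 ∧ u =ᵐ[volume] fun x => max ⟪e, x⟫ 0)} 7 ∧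
    ∀ (d : ℕ) (e : Euc d), ‖e‖ = 1 → IsH10Minimizer (fun x => max ⟪e, x⟫ 0) ∧
      ∀ r : ℝ, 0 < r → ∀ᵐ x, max ⟪e, r • x⟫ 0 = r * max ⟪e, x⟫ 0 := by
  refine ⟨⟨?_, fun d hd => ?_⟩, fun d e he =>
    ⟨(isGlobalMinimizer_flat he).isH10Minimizer, fun r hr => Eventually.of_forall fun x => ?_⟩⟩
  · obtain ⟨u, hu, hh, hn⟩ := Seven.exists_nonflat_minimizer
    exact ⟨by norm_num, u, hu.isH10Minimizer, hh, hn⟩
  · obtain ⟨h1, u, hu, hh, hn⟩ := hd
    by_contra h7
    refine hn (minimizersFlat_of_flatness (fun d _ _ => flatnessBlock d)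
      (fun d _ _ => B5.smoothBlock d) (fun k h h6 => ?_) d h1 (by omega) u hu.isGlobalMinimizer hh)
    rcases (by omega : k = 2 ∨ k = 3 ∨ k = 4 ∨ k = 5 ∨ k = 6) with rfl | rfl | rfl | rfl | rfl
    · exact Cone.coneBlock_two
    · exact Cone.coneBlock_three
    · exact Cone.coneBlock_four
    · exact coneBlock_five
    · exact coneBlock_six
  · rw [inner_smul_right, mul_max_of_nonneg _ _ hr.le, mul_zero]

end Vale.Agent.Results.P098.HomogeneousMinimizers
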