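import Vale.Agent.P098.Cert.Scalar
import Vale.Agent.P098.Cert.Subst
import Vale.Agent.P098.Cert.Bridge.Mid
import Vale.Agent.P098.Cert.Bridge.Node
import Vale.Agent.P098.Sobolev
import Vale.Agent.P098.Example

/-!
P098: stable one-homogeneous one-phase free boundary solutions with smooth cross-section are flat
in dimension five.
-/

open MeasureTheory Filter
open scoped Topology RealInnerProductSpace

namespace Vale.Agent.Results.P098.StableCones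

open Vale.Agent.P098 Vale.Agent.P098.Cert in
theorem result :
    (∀ u : Euc 5 → ℝ, IsSmoothCone u → IsStable u →
      (∀ x, u x = 0) ∨ ∃ e : Euc 5, ‖e‖ = 1 ∧ ∀ x, u x = max ⟪e, x⟫ 0) ∧
    (∀ w u : Euc 5 → ℝ, IsGlobalMinimizer w → IsSmoothCone u → w =ᵐ[volume] u →
      w =ᵐ[volume] 0 ∨ ∃ e : Euc 5, ‖e‖ = 1 ∧ w =ᵐ[volume] fun x => max ⟪e, x⟫ 0) ∧
    (∀ e : Euc 5, ‖e‖ = 1 →
      IsSmoothCone (fun x => max ⟪e, x⟫ 0) ∧ IsStable (fun x => max ⟪e, x⟫ 0)) ∧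
    (∃ u : Euc 5 → ℝ, IsSmoothCone u ∧
      ¬ ((∀ x, u x = 0) ∨ ∃ e : Euc 5, ‖e‖ = 1 ∧ ∀ x, u x = max ⟪e, x⟫ 0)) := by
  have node : ∀ s v τ : ℝ, s ∈ Set.Icc (0 : ℝ) 1 → v ∈ Set.Icc (0 : ℝ) 1 → τ ∈ Set.Icc (0 : ℝ) 1 →
      ∀ w₀ w₁ o R : ℝ, 0 ≤ o → 0 ≤ R →
        nodeRed (1 / 4) (6252502 / 100000000) vecT (jetM vecM (s, s ^ 2 + v * (1 - s ^ 2)))
            (jetC vecC (s, s ^ 2 + v * (1 - s ^ 2))) (chartMu τ) (chartA τ) s
            (v * (1 - s ^ 2)) w₀ w₁ o R ≤ 0 ∧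
          nodeRed (1 / 4) (6252502 / 100000000) vecT (jetM vecM (s, s ^ 2 + v * (1 - s ^ 2)))
            (jetC vecC (s, s ^ 2 + v * (1 - s ^ 2))) (chartMu τ) (-chartA τ) s
            (v * (1 - s ^ 2)) w₀ w₁ o R ≤ 0 := fun s v τ hs hv hτ w₀ w₁ o R ho hR =>
    ⟨nodeRed_pos_nonpos s v τ hs hv hτ w₀ w₁ o R ho hR,
      nodeRed_neg_nonpos s v τ hs hv hτ w₀ w₁ o R ho hR⟩
  have mid : ∀ s v τ : ℝ, s ∈ Set.Icc (0 : ℝ) 1 → v ∈ Set.Icc (0 : ℝ) 1 → τ ∈ Set.Icc (0 : ℝ) 1 →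
      ∀ w₀ w₁ w₂ o R : ℝ, 0 ≤ o → 0 ≤ R →
        midRed (1 / 4) (6252502 / 100000000) vecT (jetM vecM (s, s ^ 2 + v * (1 - s ^ 2)))
          (jetC vecC (s, s ^ 2 + v * (1 - s ^ 2))) (midMu τ) (midR τ) s
          (v * (1 - s ^ 2)) w₀ w₁ w₂ o R ≤ 0 := midRed_vec_nonpos
  have cls : ClassAll vecG vecM vecC vecT := fun s q hs hq h => by
    obtain ⟨h1, h2, h3, h4, h5, h6⟩ := scalar_vec hs h
    exact ⟨node_vec (by norm_num [vecT]) (by norm_num [vecT]) node hs hq h,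
      mid_vec (κ := 6252502 / 100000000) (by norm_num [vecT]) (by norm_num [vecT]) mid hs hq h, h1, h2, h3, h4, h5, h6⟩
  have cert : ∀ u : Euc 5 → ℝ, IsSmoothCone u → IsStable u →
      (∀ x, u x = 0) ∨ ∃ e : Euc 5, ‖e‖ = 1 ∧ ∀ x, u x = max ⟪e, x⟫ 0 := fun u hu hst =>
    flat_of_class (by norm_num [vecT]) contDiff_vec.1 contDiff_vec.2.1 contDiff_vec.2.2
      (fun p _ _ => by norm_num [vecG, quad]) cls edgeIneq_vec hu hst
  refine ⟨cert, fun w u hw hu hwu => ?_, fun e he => flat_isSmoothCone_isStable he,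
    ⟨fun x => max (cone5 x) 0, isSmoothCone_cone5, cone5_not_flat⟩⟩
  rcases cert u hu (hw.isStable hu hwu) with h | ⟨e, he, h⟩
  · exact Or.inl (hwu.trans (Eventually.of_forall h))
  · exact Or.inr ⟨e, he, hwu.trans (Eventually.of_forall h)⟩

end Vale.Agent.Results.P098.StableCones
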