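import Vale.Agent.P098.Cert6.Final
import Vale.Agent.P098.Cert6.Tree.Hedge

/-!
P098: stable one-homogeneous one-phase free boundary solutions with smooth cross-section are flat
in dimension six.
-/

open MeasureTheory Filter
open scoped Topology RealInnerProductSpace

namespace Vale.Agent.Results.P098.StableConesSix

open Vale.Agent.P098 Vale.Agent.P098.Cert6 in
theorem result :
    (∀ u : Euc 6 → ℝ, IsSmoothCone u → IsStable u →
      (∀ x, u x = 0) ∨ ∃ e : Euc 6, ‖e‖ = 1 ∧ ∀ x, u x = max ⟪e, x⟫ 0) ∧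
    (∀ w u : Euc 6 → ℝ, IsGlobalMinimizer w → IsSmoothCone u → w =ᵐ[volume] u →
      w =ᵐ[volume] 0 ∨ ∃ e : Euc 6, ‖e‖ = 1 ∧ w =ᵐ[volume] fun x => max ⟪e, x⟫ 0) ∧
    (∀ e : Euc 6, ‖e‖ = 1 →
      IsSmoothCone (fun x => max ⟪e, x⟫ 0) ∧ IsStable (fun x => max ⟪e, x⟫ 0)) ∧
    (∃ u : Euc 6 → ℝ, IsSmoothCone u ∧
      ¬ ((∀ x, u x = 0) ∨ ∃ e : Euc 6, ‖e‖ = 1 ∧ ∀ x, u x = max ⟪e, x⟫ 0)) :=
  stableConesSix_of_edge hedge6

end Vale.Agent.Results.P098.StableConesSix
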